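import Crest.Agent.X212.Lns95.Dsc
import Crest.Agent.X212.Ms48.Main
import Crest.Agent.X212.Rod53.Bnd

/-!
# Row 212, LENS-GL (helper9): round frames on quotients of `S³` and on `S¹ × S²`
-/

set_option autoImplicit false
set_option linter.unusedSectionVars false
noncomputable section
open Set Filter Topology Function Metric Module Matrix
open scoped ContDiff Manifold InnerProductSpace

namespace Crest.Agent.X212.Gl9
open Met55 Sob92 Rod53 An

variable {E : Type} [NormedAddCommGroup E] [NormedSpace ℝ E] [FiniteDimensional ℝ E]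
  {H : Type} [TopologicalSpace H] {I : ModelWithCorners ℝ E H}
  {A : Type} [TopologicalSpace A] [ChartedSpace H A] [IsManifold I ∞ A]
  {E' : Type} [NormedAddCommGroup E'] [NormedSpace ℝ E'] [FiniteDimensional ℝ E']
  {H' : Type} [TopologicalSpace H'] {J : ModelWithCorners ℝ E' H'}
  {Y : Type} [TopologicalSpace Y] [ChartedSpace H' Y] [IsManifold J ∞ Y]
  {V : Type} [NormedAddCommGroup V] [InnerProductSpace ℝ V] {ι κ : Type} [Fintype ι] [Fintype κ]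

/-- `L` is an isomorphism onto the complement of `n` -/
structure Hyp (L : E →ₗ[ℝ] V) (n : V) : Prop where
  inj : Injective L
  ran : ∀ w, ∃ ξ, L ξ = w - ⟪n, w⟫_ℝ • n
  perp : ∀ ξ, ⟪L ξ, n⟫_ℝ = 0

theorem Hyp.key [DecidableEq ι] {L : E →ₗ[ℝ] V} {n : V} (h : Hyp L n) {v : ι → E} (hs : Sp v)
    {P : Matrix ι ι ℝ} (hP : IsP v P) : Adm P (gram ℝ (L ∘ v) + (1 - P)) ∧ ∀ x w,
      hb v (gram ℝ (L ∘ v) + (1 - P))⁻¹ (innerₛₗ ℝ x ∘ₗ L) (innerₛₗ ℝ w ∘ₗ L) =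
        ⟪x, w⟫_ℝ - ⟪x, n⟫_ℝ * ⟪w, n⟫_ℝ := by
  have PP := hP.mul hP
  have g : ∀ c a, (gram ℝ (L ∘ v) *ᵥ c) a = ⟪L (v a), L (∑ b, c b • v b)⟫_ℝ := fun c a => by
    simp [mulVec, dotProduct, inner_sum, inner_smul_right, mul_comm]
  have gP : gram ℝ (L ∘ v) * P = gram ℝ (L ∘ v) := Matrix.ext_of_mulVec_single fun a => by
    rw [← mulVec_mulVec]; exact funext fun b => by rw [g, g, hP.comb]
  have gs : (gram ℝ (L ∘ v))ᵀ = gram ℝ (L ∘ v) := by ext; simp [real_inner_comm]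
  have Q : (1 - P)ᴴ * (1 - P) = 1 - P := by
    rw [conjTranspose_eq_transpose_of_trivial, transpose_sub, transpose_one, hP.symm, Matrix.sub_mul,
      Matrix.mul_sub, Matrix.mul_sub, PP]; simp
  have Qp : (1 - P).PosSemidef := Q ▸ posSemidef_conjTranspose_mul_self _
  have a : Adm P (gram ℝ (L ∘ v) + (1 - P)) := by
    refine ⟨PosDef.of_dotProduct_mulVec_pos ((isHermitian_gram _ _).add Qp.isHermitian) fun x hx => ?_, ?_⟩
    · rw [add_mulVec, dotProduct_add, star_dotProduct_gram_mulVec]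
      by_cases k : ∑ a, x a • (L ∘ v) a = 0
      · rw [k, inner_zero_left, zero_add, sub_mulVec, one_mulVec,
          hP.ker x (h.inj (by simpa using k)), sub_zero]
        exact dotProduct_star_self_pos_iff.2 hx
      · exact add_pos_of_pos_of_nonneg (real_inner_self_pos.2 k) (Qp.dotProduct_mulVec_nonneg x)
    · have := congrArg transpose gP
      rw [transpose_mul, gs, hP.symm] at this
      rw [Matrix.add_mul, Matrix.mul_add, gP, this, Matrix.sub_mul, Matrix.mul_sub, PP]; simp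
  refine ⟨a, fun x w => ?_⟩
  obtain ⟨ξ, e⟩ := h.ran w
  obtain ⟨d, rfl⟩ := hs ξ
  have : (fun a => (innerₛₗ ℝ w ∘ₗ L) (v a)) = (gram ℝ (L ∘ v) + (1 - P)) *ᵥ (P *ᵥ d) := by
    funext a
    rw [add_mulVec, sub_mulVec, one_mulVec, mulVec_mulVec d P, PP, sub_self, add_zero, g, hP.comb, e]
    simp [inner_sub_right, inner_smul_right, h.perp, real_inner_comm]
  rw [hb, this, mulVec_mulVec, nonsing_inv_mul _ a.unit, one_mulVec,
    show _ ⬝ᵥ _ = ⟪x, L (∑ b, (P *ᵥ d) b • v b)⟫_ℝ by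
      simp [dotProduct, inner_sum, inner_smul_right, mul_comm], hP.comb, e]
  simp [inner_sub_right, inner_smul_right, real_inner_comm, mul_comm]

variable (I J) in
/-- the frame `e` is round through the covering `c` and the hypersurface `Θ` with the normal `n` -/
def Rd (c : A → Y) (Θ n : A → V) (e : κ → VF J Y) : Prop := ∀ (y : A) (v w : V),
  ∑ k, ⟪v, dv I (pbv I J c (e k)) Θ y⟫_ℝ * ⟪w, dv I (pbv I J c (e k)) Θ y⟫_ℝ =
    ⟪v, w⟫_ℝ - ⟪v, n y⟫_ℝ * ⟪w, n y⟫_ℝ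

variable {c : A → Y} {Θ n : A → V}

variable (I J) in
/-- the differential of `Θ` on the tangent space of the quotient -/
def dq (c : A → Y) (Θ : A → V) (y : A) : E' →ₗ[ℝ] V :=
  dmp I 𝓘(ℝ, V) Θ y ∘ₗ (show E' →L[ℝ] E from (mfderiv I J c y).inverse).toLinearMap

theorem Rd.co {e : ι → VF J Y} {e' : κ → VF J Y} (h : Rd I J c Θ n e)
    (k : ∀ p, Co (atx e p) (atx e' p)) : Rd I J c Θ n e' := fun y v w =>
  (k (c y) (innerₛₗ ℝ v ∘ₗ dq I J c Θ y) (innerₛₗ ℝ w ∘ₗ dq I J c Θ y)).symm.trans (h y v w)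

theorem deck (hc : IsLocalDiffeomorph I J ∞ c) (hΘ : ContMDiff I 𝓘(ℝ, V) ∞ Θ) {T : A → A}
    (hT : ContMDiff I I ∞ T) (e : ∀ z, c (T z) = c z) (B : V →L[ℝ] V) {t : V}
    (eΘ : ∀ z, Θ (T z) = B (Θ z) + t) (X : VF J Y) (y : A) :
    dv I (pbv I J c X) Θ (T y) = B (dv I (pbv I J c X) Θ y) := by
  have d := (hT y).mdifferentiableAt (by simp)
  rw [← dv_rel d ((ld_bij (hc (T y))).1 _) ((hΘ _).mdifferentiableAt (by simp)),
    show Θ ∘ T = fun z => B (Θ z) + t from funext eΘ]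
  · exact dv_comp ((hΘ _).mdifferentiableAt (by simp)) (B.hasFDerivAt.add_const t)
  · have h1 := mfderiv_comp_apply y ((hc (T y)).contMDiffAt.mdifferentiableAt (by simp)) d (pbv I J c X y)
    have h2 : ∀ p q, p = q → (X p : E') = X q := fun _ _ h => by rw [h]
    rw [show c ∘ T = c from funext e] at h1
    exact h1.symm.trans ((pbv_rel (hc y) X).trans ((h2 _ _ (e y).symm).trans (pbv_rel (hc _) X).symm))

theorem desc (hc : IsLocalDiffeomorph I J ∞ c) (hs : Surjective c) (hΘ : ContMDiff I 𝓘(ℝ, V) ∞ Θ)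
    (hn : ∀ y, Hyp (dmp I 𝓘(ℝ, V) Θ y) (n y)) (dk : ∀ y y', c y = c y' → ∃ B : V ≃ₗᵢ[ℝ] V,
      ∀ X, dv I (pbv I J c X) Θ y' = B (dv I (pbv I J c X) Θ y))
    {r : ι → VF J Y} (hr : ∀ p, FAt r p) : ∃ e : ι → VF J Y, (∀ p, FAt e p) ∧ Rd I J c Θ n e := by
  classical
  let G : Y → Matrix ι ι ℝ := fun p => gram ℝ fun a => dv I (pbv I J c (r a)) Θ (surjInv hs p)
  have g : ∀ y, G (c y) = gram ℝ (dq I J c Θ y ∘ atx r (c y)) := fun y => by
    obtain ⟨B, h⟩ := dk y _ (surjInv_eq hs (c y)).symm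
    ext a b
    simp only [G, gram_apply, h, B.inner_map_map]
    rfl
  have k : ∀ y, Hyp (dq I J c Θ y) (n y) := fun y =>
    ⟨(hn y).inj.comp (ld_inv (hc y)).inverse.bijective.1, fun w =>
      let ⟨ξ, e⟩ := (hn y).ran w
      ⟨mfderiv I J c y ξ, (congrArg _ ((ld_inv (hc y)).inverse_apply_self ξ)).trans e⟩,
      fun _ => (hn y).perp _⟩
  have a := fun y => g y ▸ (k y).key (hr (c y)).sp (hr (c y)).isP
  refine ⟨dfm (fun p => (G p + (1 - fP r p))⁻¹) r, hs.forall.2 fun y => (hr _).dfm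
    (Pj41.MSm.inv (.add (fun i j => Glue52.contMDiffAt_of_comp (hc y) ?_) ((Pj41.MSm.const 1).sub
      (hr _).msm_fP)) (a y).1.unit.ne_zero) (a y).1.inv
    (.of_forall (hs.forall.2 fun z => (a z).1.inv.symm)), fun y v w => ?_⟩
  · have s := fun i => dv_smoothAt (vAt_pbv (hc y) ((hr _).sm i)) (hΘ y)
    exact ((contDiff_fst.inner ℝ contDiff_snd).contMDiff _).comp y ((s i).prodMk_space (s j))
      |>.congr_of_eventuallyEq (.of_forall fun z => congrFun (congrFun (g z) i) j)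
  · rw [← (a y).2, ← hb_dfm (A := fun p => (G p + (1 - fP r p))⁻¹) (a y).1.inv, hb_one]
    rfl

theorem psc_cov [MeasurableSpace E'] [BorelSpace E'] [MeasurableSpace Y] [FiniteDimensional ℝ V]
    (F : Fr J Y κ) (hc : IsLocalDiffeomorph I J ∞ c) (hs : Surjective c) (hΘ : ContMDiff I 𝓘(ℝ, V) ∞ Θ)
    {η : Type} [Fintype η] [DecidableEq η] {π : V →L[ℝ] V} {v : η → V} {ν : η → κ → Y → ℝ} {m : ℝ}
    (hm : 2 ≤ m) (tr : LinearMap.trace ℝ V π = m + 1) (hd : finrank ℝ V = finrank ℝ E' + 1)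
    (hv : ∀ w, w - π w = ∑ i, ⟪v i, w⟫_ℝ • v i) (ho : ∀ i j, ⟪v i, v j⟫_ℝ = if i = j then 1 else 0)
    (id : ∀ v, π (π v) = π v) (sy : ∀ v w, ⟪π v, w⟫_ℝ = ⟪v, π w⟫_ℝ) (nr : ∀ y, ‖π (Θ y)‖ = 1)
    (h : Rd I J c Θ (fun y => π (Θ y)) F.e)
    (hν : ∀ i a y, ν i a (c y) = ⟪v i, dv I (pbv I J c (F.e a)) Θ y⟫_ℝ) : Rf65.Psc F ν (m - 1) := by
  refine Rf65.psc_of_sph F hm tr (fun p => ?_) hv ho (hs.forall.2 fun y => ?_)
  · have := (pre_sp F.toPre p).trace_prj (b := finBasis ℝ E')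
    simp only [fr_P, hd]
    simpa [trace, fP] using this
  · have l : ∀ᶠ z in 𝓝 y, (Θ ∘ (hc y).localInverse) ∘ c =ᶠ[𝓝 z] Θ :=
      (hc y).localInverse_eventuallyEq_left.eventually_nhds.mono fun z hz =>
        hz.mono fun x hx => congrArg Θ hx
    have s : ∀ᶠ z in 𝓝 y, ContMDiffAt J 𝓘(ℝ, V) ∞ (Θ ∘ (hc y).localInverse) (c z) :=
      l.mono fun z hz => Glue52.contMDiffAt_of_comp (hc z) ((hΘ z).congr_of_eventuallyEq hz)
    have d : ∀ᶠ z in 𝓝 y, ∀ a, dv J (F.e a) (Θ ∘ (hc y).localInverse) (c z) =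
        dv I (pbv I J c (F.e a)) Θ z := (l.and s).mono fun z hz a => by
      rw [← dv_rel ((hc z).contMDiffAt.mdifferentiableAt (by simp)) (pbv_rel (hc z) _)
        (hz.2.mdifferentiableAt (by simp)), dv_congr hz.1]
    have t : ∀ {P : Y → Prop}, (∀ᶠ z in 𝓝 y, P (c z)) → ∀ᶠ p in 𝓝 (c y), P p := fun k => by
      rwa [← hc.isLocalHomeomorph.map_nhds_eq y]
    refine ⟨Θ ∘ (hc y).localInverse, ⟨id, sy, t s, t (l.mono fun z hz => ?_),
      t ((l.and d).mono fun z hz v w => ?_)⟩, t (d.mono fun z hz i a => ?_)⟩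
    · exact (congrArg (‖π ·‖) hz.self_of_nhds).trans (nr z)
    · simp only [hz.2, show (Θ ∘ (hc y).localInverse) (c z) = Θ z from hz.1.self_of_nhds]
      exact h z v w
    · rw [hν, F.D_def, hz]

theorem hyp_sph (k : ℕ) [Fact (finrank ℝ V = k + 1)] (y : sphere (0 : V) 1) :
    Hyp (dmp (𝓡 k) 𝓘(ℝ, V) (fun z : sphere (0 : V) 1 => (z : V)) y) y := by
  have h := range_mvfderiv_subtypeVal (n := k) y
  refine ⟨injective_mvfderiv_subtypeVal_sphere y, fun w => (h.ge ?_ :), fun ξ =>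
    Submodule.mem_orthogonal_singleton_iff_inner_left.1 (h.le ⟨ξ, rfl⟩)⟩
  simp [Submodule.mem_orthogonal_singleton_iff_inner_right, inner_sub_right, inner_smul_right]

/-- round frames on quotients of `S³` by isometries -/
theorem exists_rc [J.Boundaryless] [T2Space Y] [SecondCountableTopology Y] {c : S3' → Y}
    (hc : IsLocalDiffeomorph (𝓡 3) J ∞ c) (hs : Surjective c) (hd : finrank ℝ E' = 3)
    (dk : ∀ y y', c y = c y' → ∃ B, y' = sphD (n := 3) B y ∧ ∀ z, c (sphD (n := 3) B z) = c z) :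
    ∃ e : Fin 6 → VF J Y, (∀ y, FAt e y) ∧ Lns95.RC J c e := by
  have := hs.compactSpace hc.contMDiff.continuous
  obtain ⟨N, f, hf⟩ := exists_frame (I := J) (M := Y)
  obtain ⟨r, hr⟩ := Ms48.exists_fields (m := 6) (by omega) f hf
  refine desc hc hs contMDiff_coe_sphere (hyp_sph 3) (fun y y' e => ?_) hr
  obtain ⟨B, rfl, k⟩ := dk y y' e
  exact ⟨B, fun X => deck hc contMDiff_coe_sphere (sphD B).contMDiff k B.toContinuousLinearEquiv (t := 0)
    (fun _ => (add_zero _).symm) X y⟩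

theorem gl : Lns95.GlStmt := fun _ _ h => exists_rc (ld_cov h) (cov_surj h) (by simp) fun _ _ e =>
  let ⟨_, _, k, e⟩ := (cov_eq_iff h).1 e
  ⟨_, e, cov_rot h k⟩

theorem gp : Lns95.GpStmt := fun Y c hc hs κ _ F h => by
  have := psc_cov F hc hs contMDiff_coe_sphere (π := .id ℝ E4) (v := fun i : Empty => i.elim)
    (ν := fun _ => 0) (m := 3) (by norm_num) (by simp; norm_num) (by simp [Y.dim]) (by simp)
    (fun i => i.elim) (fun _ => rfl) (fun _ _ => rfl) (by simp) h fun i => i.elim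
  norm_num at this
  exact this

/-! ### `S¹ × S²` -/

/-- the two-sphere -/
abbrev S2 : Type := sphere (0 : E3) 1
/-- the ambient space of `ℝ × S²` -/
abbrev VR : Type := WithLp 2 (ℝ × E3)
/-- the universal covering of `S¹ × S²` -/
def cR : ℝ × S2 → Circle × S2 := Prod.map Circle.exp id
/-- the embedding of `ℝ × S²` -/
def tR (p : ℝ × S2) : VR := (WithLp.prodContinuousLinearEquiv 2 ℝ ℝ E3).symm (p.1, p.2)
/-- the projection to `ℝ³` -/
def pR : VR →L[ℝ] VR := (WithLp.prodContinuousLinearEquiv 2 ℝ ℝ E3).symm ∘L .inr ℝ ℝ E3 ∘L WithLp.sndL 2 ℝ ℝ E3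

theorem ld_cR : IsLocalDiffeomorph (𝓘(ℝ, ℝ).prod (𝓡 2)) ((𝓡 1).prod (𝓡 2)) ∞ cR :=
  Glue52.ld_prodMap Glue52.ld_circleExp Glue52.ld_id

theorem cR_surj : Surjective cR := Circle.exp_surjective.prodMap surjective_id

theorem sm_tR : ContMDiff (𝓘(ℝ, ℝ).prod (𝓡 2)) 𝓘(ℝ, VR) ∞ tR :=
  (ContinuousLinearEquiv.contDiff _).contMDiff.comp
    (contMDiff_fst.prodMk_space (contMDiff_coe_sphere.comp contMDiff_snd))

theorem d_tR (p : ℝ × S2) (ξ : ℝ × EuclideanSpace ℝ (Fin 2)) :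
    dmp (𝓘(ℝ, ℝ).prod (𝓡 2)) 𝓘(ℝ, VR) tR p ξ =
      WithLp.toLp 2 (ξ.1, dmp (𝓡 2) 𝓘(ℝ, E3) (fun z : S2 => (z : E3)) p.2 ξ.2) := by
  have h := (contMDiff_coe_sphere (n := 2) (m := 1) p.2).mdifferentiableAt one_ne_zero
  have k := h.comp p (mdifferentiableAt_snd (I := 𝓘(ℝ, ℝ)))
  refine (dv_clm (e := fun _ => ξ) (WithLp.prodContinuousLinearEquiv 2 ℝ ℝ E3).symm.toContinuousLinearMap
    (mdifferentiableAt_fst.prodMk_space k)).trans (congrArg (WithLp.toLp 2)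
      ((dv_prod mdifferentiableAt_fst k).trans (Prod.ext ?_ ?_)))
  · exact DFunLike.congr_fun (mfderiv_fst (x := p)) ξ
  · exact dv_rel (I := 𝓘(ℝ, ℝ).prod (𝓡 2)) (X := fun _ => ξ) (X' := fun _ => ξ.2) mdifferentiableAt_snd
      (DFunLike.congr_fun (mfderiv_snd (x := p)) ξ) h

theorem hyp_tR (p : ℝ × S2) : Hyp (dmp (𝓘(ℝ, ℝ).prod (𝓡 2)) 𝓘(ℝ, VR) tR p) (pR (tR p)) := by
  have h := hyp_sph 2 p.2
  refine ⟨fun ξ ζ e => ?_, fun w => ?_, fun ξ => ?_⟩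
  · rw [d_tR, d_tR, WithLp.toLp_injective 2 |>.eq_iff, Prod.mk.injEq] at e
    exact Prod.ext e.1 (h.inj e.2)
  · obtain ⟨ξ, e⟩ := h.ran w.snd
    refine ⟨(w.fst, ξ), WithLp.ofLp_injective 2 ?_⟩
    rw [d_tR, e]
    ext1 <;> simp [pR, tR]
  · simpa [d_tR, pR, tR] using h.perp ξ.2

theorem dk_R {y y' : ℝ × S2} (e : cR y = cR y') (X : VF ((𝓡 1).prod (𝓡 2)) (Circle × S2)) :
    dv _ (pbv (𝓘(ℝ, ℝ).prod (𝓡 2)) _ cR X) tR y' = dv _ (pbv (𝓘(ℝ, ℝ).prod (𝓡 2)) _ cR X) tR y := by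
  obtain ⟨m, k⟩ := Circle.exp_eq_exp.1 (congrArg Prod.fst e).symm
  obtain rfl : y' = (y.1 + m * (2 * Real.pi), y.2) := Prod.ext k (congrArg Prod.snd e).symm
  exact deck ld_cR sm_tR (T := fun z => (z.1 + m * (2 * Real.pi), z.2))
    ((contMDiff_fst.add contMDiff_const).prodMk contMDiff_snd) (fun z => by simp [cR, Prod.map]) (.id ℝ _)
    (t := WithLp.toLp 2 (m * (2 * Real.pi), 0)) (fun z => by simp [tR, ← WithLp.toLp_add]) X y

/-- product frames on `S¹ × S²` -/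
def RR (e : κ → VF ((𝓡 1).prod (𝓡 2)) (Circle × S2)) : Prop :=
  Rd (𝓘(ℝ, ℝ).prod (𝓡 2)) _ cR tR (fun y => pR (tR y)) e

/-- the form `dθ` in the frame `e` -/
def nuR (e : κ → VF ((𝓡 1).prod (𝓡 2)) (Circle × S2)) (a : κ) (p : Circle × S2) : ℝ :=
  (dv _ (pbv (𝓘(ℝ, ℝ).prod (𝓡 2)) _ cR (e a)) tR (surjInv cR_surj p)).fst

theorem nuR_cR (e : κ → VF ((𝓡 1).prod (𝓡 2)) (Circle × S2)) (a : κ) (y : ℝ × S2) :
    nuR e a (cR y) = (pbv (𝓘(ℝ, ℝ).prod (𝓡 2)) _ cR (e a) y).1 :=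
  (congrArg WithLp.fst (dk_R (surjInv_eq _ _).symm _)).trans 
    (congrArg WithLp.fst (d_tR y (pbv (𝓘(ℝ, ℝ).prod (𝓡 2)) _ cR (e a) y)) :)

theorem exists_rr : ∃ e : Fin 6 → VF ((𝓡 1).prod (𝓡 2)) (Circle × S2), (∀ y, FAt e y) ∧ RR e := by
  obtain ⟨N, f, hf⟩ := exists_frame (I := (𝓡 1).prod (𝓡 2)) (M := Circle × S2)
  obtain ⟨r, hr⟩ := Ms48.exists_fields (m := 6) (by simp) f hf
  exact desc ld_cR cR_surj sm_tR hyp_tR (fun y y' e => ⟨.refl _ _, dk_R e⟩) hr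

theorem psc_rr {_ : MeasurableSpace (EuclideanSpace ℝ (Fin 1) × EuclideanSpace ℝ (Fin 2))}
    [BorelSpace (EuclideanSpace ℝ (Fin 1) × EuclideanSpace ℝ (Fin 2))] {_ : MeasurableSpace (Circle × S2)}
    (F : Fr ((𝓡 1).prod (𝓡 2)) (Circle × S2) κ) (h : RR F.e) :
    Rf65.Psc F (fun _ : Unit => nuR F.e) 1 := by
  have rk := (WithLp.linearEquiv 2 ℝ (ℝ × E3)).finrank_eq
  have := psc_cov F ld_cR cR_surj sm_tR (π := pR) (v := fun _ : Unit => WithLp.toLp 2 (1, 0))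
    (ν := fun _ => nuR F.e) (m := 2) le_rfl ?_ (by simp [rk])
    (fun w => WithLp.ofLp_injective 2 (by ext1 <;> simp [pR])) (by simp) (fun _ => rfl)
    (fun _ _ => by simp [pR]) (fun y => by simp [pR, tR]) h fun _ a y => by
      simpa [nuR] using congrArg WithLp.fst (dk_R (surjInv_eq _ _).symm _)
  · norm_num at this
    exact this
  · exact (LinearMap.trace_comp_comm' (WithLp.sndL 2 ℝ ℝ E3).toLinearMap
      ((WithLp.linearEquiv 2 ℝ (ℝ × E3)).symm.toLinearMap ∘ₗ .inr ℝ ℝ E3)).trans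
      ((LinearMap.trace_id ℝ E3).trans (by simp; norm_num))

end Crest.Agent.X212.Gl9
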