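import Crest.Agent.X212.Gl9.Main
import Crest.Agent.X212.Wd38.Wall

/-!
# Row 212, LENS-GL (helper9): the table of frames on the cross sections
-/

set_option autoImplicit false
noncomputable section
open Set Function
open scoped ContDiff Manifold

namespace Crest.Agent.X212.Gl9
open Met55 Rod53 An Wd38 M

variable {Γ : Nm} {κ : Type} [Fintype κ]

/-- round frames on `S³`, on the lens spaces, on the trivial fillings; the product frame on `S¹ × S²` -/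
def Std (kd : Γ.ι → Ext52.KD) : ∀ τ, (κ → VF (mY kd τ).I (mY kd τ).M) → Prop
  | .sph, e => Lns95.RC (𝓡 3) id (show κ → VF (𝓡 3) S3' from e)
  | .rr, e => RR e
  | .lens a b, e => Lns95.RC (𝓡 3) (cov (lz a b).2) (show κ → VF (𝓡 3) (Lens (lz a b).2) from e)
  | .fil τ, e => ∀ h h0, Lns95.RC (𝓡 3) (sD kd τ h h0) (show κ → VF (𝓡 3) (mF kd τ).M from e)

theorem exists_std (kd : Γ.ι → Ext52.KD) : ∀ τ, ∃ e : Fin 6 → VF (mY kd τ).I (mY kd τ).M,
    (∀ y, FAt e y) ∧ Std kd τ e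
  | .sph => exists_rc Glue52.ld_id surjective_id mS.dim fun _ _ e => ⟨.refl _ _, e.symm, fun _ => rfl⟩
  | .rr => exists_rr
  | .lens a b => gl _ _ (lz a b).2
  | .fil τ => by
    by_cases k : Pr τ.2 ∧ τ.2.1 = 0
    · obtain ⟨e, h1, h2⟩ := exists_rc (sD kd τ k.1 k.2).isLocalDiffeomorph (sD kd τ k.1 k.2).surjective
        (by simp) fun _ _ e => ⟨.refl _ _, ((sD kd τ k.1 k.2).injective e).symm, fun _ => rfl⟩
      exact ⟨e, h1, fun _ _ => h2⟩
    · obtain ⟨N, f, hf⟩ := exists_frame (I := (mF kd τ).I) (M := (mF kd τ).M)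
      obtain ⟨r, hr⟩ := Ms48.exists_fields (m := 6) (by simp) f hf
      exact ⟨r, hr, fun h h0 => (k ⟨h, h0⟩).elim⟩

theorem Std.co {kd : Γ.ι → Ext52.KD} {ι : Type} [Fintype ι] : ∀ {τ} {e : ι → VF (mY kd τ).I (mY kd τ).M}
    {e' : κ → VF (mY kd τ).I (mY kd τ).M}, Std kd τ e → (∀ p, Co (atx e p) (atx e' p)) → Std kd τ e'
  | .sph, _, _, h, k | .rr, _, _, h, k | .lens _ _, _, _, h, k => Rd.co h k
  | .fil _, _, _, h, k => fun a b => Rd.co (h a b) k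

theorem round_of {kd : Γ.ι → Ext52.KD} (F : Fr (mY kd .sph).I (mY kd .sph).M κ) (h : Std kd .sph F.e) :
    Round F (thY kd .sph) := by
  refine ⟨norm_eq_of_mem_sphere, Cyl58.isOE_pol (n := 3), fun v hv => ⟨⟨v, by simpa using hv⟩, rfl⟩, fun y v w => ?_⟩
  have : ∀ X : VF (𝓡 3) S3', pbv (𝓡 3) (𝓡 3) id X = X := fun X => funext fun y => by simp [pbv]
  exact (Finset.sum_congr rfl fun k _ => by rw [this (F.e k)]; rfl).trans (h y v w)

/-- **the table** -/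
theorem exists_tab (kd : Γ.ι → Ext52.KD) {g : Fin 6 → κ} (hg : Injective g) : ∃ G : Tab kd κ,
    (∀ τ, Std kd τ (G.g τ).e) ∧ ∀ τ, ∀ k ∉ range g, (G.g τ).e k = 0 := by
  choose e h1 h2 using exists_std kd
  have h3 : ∀ τ, Std kd τ (pad g (e τ)) := fun τ => (h2 τ).co fun p => co_pad hg (h1 τ p).sp
  exact ⟨⟨fun τ => rFr _ fun y => (h1 τ y).pad hg, fun τ => rFr_vol _ _, round_of _ (h3 .sph)⟩, h3,
    fun τ k hk => pad_of_notMem (e τ) hk⟩

variable {kd : Γ.ι → Ext52.KD} {G : Tab kd κ} (h : ∀ τ, Std kd τ (G.g τ).e)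
include h

theorem psc_sph : Rf65.Psc (G.g .sph) (fun _ : Empty => 0) 2 :=
  gp mS id Glue52.ld_id surjective_id κ _ (h .sph)

theorem psc_R : Rf65.Psc (G.g .rr) (fun _ : Unit => nuR (G.g .rr).e) 1 :=
  @psc_rr κ _ _ mR.bE _ (G.g .rr) (h .rr)

theorem psc_lens (a b : Z2) : Rf65.Psc (G.g (.lens a b)) (fun _ : Empty => 0) 2 :=
  gp (mL (lz a b).2) _ (ld_cov _) (cov_surj _) κ _ (h (.lens a b))

theorem psc_fil {τ : Γ.ι × Z2} (k : Pr τ.2) (k0 : τ.2.1 = 0) :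
    Rf65.Psc (G.g (.fil τ)) (fun _ : Empty => 0) 2 :=
  gp (mF kd τ) _ (sD kd τ k k0).isLocalDiffeomorph (sD kd τ k k0).surjective κ _ (h (.fil τ) k k0)

end Crest.Agent.X212.Gl9
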